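import Vale.Agent.P238.H651.Family

/-!
# P238: the abstract lower bound
-/

set_option autoImplicit false

namespace Vale.Agent.P238.H651

open Vale.Agent.P238 Vale.Agent.P238.Full Vale.Agent.P238.H474 Vale.Agent.P238.H142 Finset Filter

/-- The numbers: `ε / η ^ σ` is at most `exp (- (θ / 4) L log L)` up to a constant. -/
theorem numbers (C K : ℕ) {θ σ : ℝ} (hθ0 : 0 < θ) {A₀ : ℝ} (hA : 0 < A₀) :
    ∃ L0 : ℕ, ∀ L : ℕ, L0 ≤ L → 1 ≤ L ∧
      ((((4 * C + 2) * L : ℕ) : ℝ) ^ (1 - θ) ≤ L) ∧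
      A₀ * (4 * (3 * ((((4 * C + 2) * L : ℕ) : ℝ) ^ (1 - θ) / L)) ^ L) *
        Real.exp (θ / 4 * (L * Real.log L)) ≤ ((1 / 2 : ℝ) ^ L / (L : ℝ) ^ K) ^ σ := by
  obtain ⟨L1, hL1, -, hthr⟩ := exists_threshold C K hθ0
  have ht : Tendsto (fun L : ℕ => Real.log (L : ℝ)) atTop atTop :=
    Real.tendsto_log_atTop.comp tendsto_natCast_atTop_atTop
  have ht2 : Tendsto (fun L : ℕ => (L : ℝ)) atTop atTop := tendsto_natCast_atTop_atTop
  have hev : ∀ᶠ L : ℕ in atTop, L1 ≤ L ∧ 1 ≤ L ∧ 12 * (σ * Real.log 2) / θ ≤ Real.log L ∧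
      12 * (σ * K) / θ ≤ (L : ℝ) ∧ 12 * Real.log (4 * A₀) / θ ≤ (L : ℝ) ∧ 1 ≤ Real.log (L : ℝ) ∧
      0 ≤ Real.log (L : ℝ) := by
    filter_upwards [eventually_ge_atTop L1, eventually_ge_atTop 1,
      ht.eventually_ge_atTop (12 * (σ * Real.log 2) / θ), ht2.eventually_ge_atTop (12 * (σ * K) / θ),
      ht2.eventually_ge_atTop (12 * Real.log (4 * A₀) / θ), ht.eventually_ge_atTop 1,
      ht.eventually_ge_atTop 0] with L h1 h2 h3 h4 h5 h6 h7
    exact ⟨h1, h2, h3, h4, h5, h6, h7⟩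
  obtain ⟨L0, hL0⟩ := eventually_atTop.1 hev
  refine ⟨L0, fun L hL => ?_⟩
  obtain ⟨h1, h2, h3, h4, h5, h6, h7⟩ := hL0 L hL
  obtain ⟨hM, hKL⟩ := hthr L h1
  obtain ⟨hb1, hb2⟩ := num_bound hθ0 h2 hM hKL
  have hLR : (1 : ℝ) ≤ L := by exact_mod_cast h2
  have hLpos : (0 : ℝ) < L := by linarith
  have hLK : (1 : ℝ) ≤ (L : ℝ) ^ K := one_le_pow₀ hLR
  refine ⟨h2, hb1, ?_⟩
  obtain ⟨r, hr⟩ : ∃ r : ℝ, r = (((4 * C + 2) * L : ℕ) : ℝ) ^ (1 - θ) / L := ⟨_, rfl⟩
  rw [← hr] at hb2 ⊢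
  have hr0 : 0 ≤ r := by rw [hr]; positivity
  have e1 : (3 * r) ^ L ≤ Real.exp (-(θ / 2 * (L * Real.log L))) := by
    calc (3 * r) ^ L ≤ (6 * r) ^ L := pow_le_pow_left₀ (by positivity) (by linarith) L
      _ ≤ (L : ℝ) ^ K * (6 * r) ^ L := le_mul_of_one_le_left (by positivity) hLK
      _ ≤ _ := hb2
  have e2 : ((1 / 2 : ℝ) ^ L / (L : ℝ) ^ K) ^ σ =
      Real.exp (-(σ * (L * Real.log 2)) - σ * (K * Real.log L)) := by
    have hb : (0 : ℝ) < (1 / 2 : ℝ) ^ L / (L : ℝ) ^ K := by positivity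
    rw [Real.rpow_def_of_pos hb, Real.log_div (by positivity) (by positivity), Real.log_pow,
      Real.log_pow, one_div, Real.log_inv]
    congr 1
    ring
  have e3 : A₀ * 4 = Real.exp (Real.log (4 * A₀)) := by
    rw [Real.exp_log (by positivity)]
    ring
  have hθL : 0 < θ * L := by positivity
  have f1 : σ * (L * Real.log 2) ≤ θ / 12 * (L * Real.log L) := by
    rw [div_le_iff₀ hθ0] at h3
    nlinarith only [h3, hLpos]
  have f2 : σ * (K * Real.log L) ≤ θ / 12 * (L * Real.log L) := by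
    rw [div_le_iff₀ hθ0] at h4
    nlinarith only [h4, h7]
  have f3 : Real.log (4 * A₀) ≤ θ / 12 * (L * Real.log L) := by
    rw [div_le_iff₀ hθ0] at h5
    have : (L : ℝ) ≤ L * Real.log L := le_mul_of_one_le_right hLpos.le h6
    nlinarith only [h5, this, hθ0]
  rw [e2]
  calc A₀ * (4 * (3 * r) ^ L) * Real.exp (θ / 4 * (L * Real.log L))
      = (A₀ * 4) * (3 * r) ^ L * Real.exp (θ / 4 * (L * Real.log L)) := by ring
    _ ≤ Real.exp (Real.log (4 * A₀)) * Real.exp (-(θ / 2 * (L * Real.log L))) *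
          Real.exp (θ / 4 * (L * Real.log L)) := by
        rw [← e3]
        apply mul_le_mul_of_nonneg_right _ (Real.exp_pos _).le
        exact mul_le_mul_of_nonneg_left e1 (by positivity)
    _ = Real.exp (Real.log (4 * A₀) - θ / 4 * (L * Real.log L)) := by
        rw [← Real.exp_add, ← Real.exp_add]
        congr 1
        ring
    _ ≤ _ := by
        apply Real.exp_le_exp.2
        linarith only [f1, f2, f3]

/-- There is an absolute constant `c` such that for all `θ`, `σ`, `A₀` and all large `n` there are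
families of words with the following parameters. -/
theorem family : ∃ c : ℝ, 0 < c ∧ ∀ θ σ A₀ : ℝ, 0 < θ → θ ≤ 1 → 0 < σ → 0 < A₀ →
    ∃ n₀ : ℕ, ∀ n : ℕ, n₀ ≤ n →
    ∃ (G : Type) (_ : AddCommGroup G) (_ : Fintype G) (E : G → (Fin n → Bool)) (v : G)
      (M η ε : ℝ),
      0 < M ∧ 0 < η ∧ 0 < ε ∧ (∀ x y, binED n (E x) (E y) ≤ M) ∧
      (∀ x, η * M ≤ binED n (E x) (E (x + v))) ∧
      (∀ k : G → G → ℝ, Neg k → ∀ B : ℝ, 0 ≤ B →
          (∀ x y, k x y ≤ B * (binED n (E x) (E y) / M) ^ θ) →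
          ∑ x, k x (x + v) ≤ (Fintype.card G : ℝ) * (B * ε)) ∧
      A₀ * ε * Real.exp (c * θ * Real.sqrt (Real.log n * Real.log (Real.log n))) ≤ η ^ σ := by
  obtain ⟨C, hC, hpr⟩ := primes_exist
  obtain ⟨K, hK⟩ : ∃ K, K = 6 * C + 17 := ⟨_, rfl⟩
  have hK1 : 1 ≤ K := by omega
  have hKpos : (0 : ℝ) < K := by exact_mod_cast hK1
  have hsq : 0 < Real.sqrt (32 * K) := Real.sqrt_pos.2 (by positivity)
  refine ⟨1 / 4 / Real.sqrt (32 * K), by positivity, ?_⟩
  intro θ σ A₀ hθ0 hθ1 hσ hA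
  obtain ⟨L0, hL0⟩ := numbers C K (σ := σ) hθ0 hA
  obtain ⟨L1, hL1⟩ : ∃ L1, L1 = 256 + 8 * K + (4 * C + 2) + L0 := ⟨_, rfl⟩
  refine ⟨L1 ^ (K * L1 ^ 2), fun n hn => ?_⟩
  obtain ⟨hLL, hLn, hsqrt⟩ := lev_spec K hK1 (by omega : 256 + 8 * K ≤ L1) hn
  obtain ⟨h1, h2, h3⟩ := hL0 (lev K n) (by omega)
  obtain ⟨G, i1, i2, E, v, M, hM, hd, hf, hp⟩ := exists_family C hC hpr (L := lev K n) (n := n)
    (by omega) (by rw [← hK]; exact hLn)
  have hLR : (0 : ℝ) < (lev K n : ℝ) := by exact_mod_cast h1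
  have hC2 : (0 : ℝ) < (((4 * C + 2) * lev K n : ℕ) : ℝ) := by
    have : 0 < (4 * C + 2) * lev K n := Nat.mul_pos (by omega) (by omega)
    exact_mod_cast this
  rw [← hK] at hf
  refine ⟨G, i1, i2, E, v, M, (1 / 2 : ℝ) ^ lev K n / (lev K n : ℝ) ^ K,
    4 * (3 * ((((4 * C + 2) * lev K n : ℕ) : ℝ) ^ (1 - θ) / lev K n)) ^ lev K n,
    hM, by positivity, ?_, hd, hf, hp θ hθ0 hθ1 h2, ?_⟩
  · have : 0 < (((4 * C + 2) * lev K n : ℕ) : ℝ) ^ (1 - θ) := Real.rpow_pos_of_pos hC2 _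
    positivity
  · refine le_trans (mul_le_mul_of_nonneg_left (Real.exp_le_exp.2 ?_) ?_) h3
    · calc 1 / 4 / Real.sqrt (32 * K) * θ * Real.sqrt (Real.log n * Real.log (Real.log n))
          ≤ 1 / 4 / Real.sqrt (32 * K) * θ *
              (Real.sqrt (32 * K) * (lev K n * Real.log (lev K n))) :=
            mul_le_mul_of_nonneg_left hsqrt (by positivity)
        _ = θ / 4 * (lev K n * Real.log (lev K n)) := by field_simp
    · have : 0 < (((4 * C + 2) * lev K n : ℕ) : ℝ) ^ (1 - θ) := Real.rpow_pos_of_pos hC2 _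
      positivity

/-- The abstract lower bound: `ρ` is the distance function of a map into some space, and on
every ball it is comparable, up to powers, with a kernel of negative type. -/
theorem abstract_lower : ∃ c : ℝ, 0 < c ∧ ∀ α θ σ C : ℝ, 0 < α → α ≤ 1 → 0 < θ → θ ≤ 1 → 0 < σ →
    0 < C → ∃ n₀ : ℕ, ∀ n : ℕ, n₀ ≤ n → ∀ (ρ : (Fin n → Bool) → (Fin n → Bool) → ℝ) (A B : ℝ),
      (∀ x y, A * binED n x y ^ α ≤ ρ x y ∧ ρ x y ≤ B * binED n x y ^ α) →
      (∀ (G : Type) [Fintype G] [AddCommGroup G] (E : G → (Fin n → Bool)) (R : ℝ), 0 < R →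
        (∀ x y, ρ (E x) (E y) ≤ R) → ∃ k : G → G → ℝ, Neg k ∧
          (∀ x y, k x y ≤ C * (ρ (E x) (E y) / R) ^ θ) ∧
          (∀ x y, (ρ (E x) (E y) / R) ^ σ ≤ C * k x y)) →
      A * Real.exp (c * (α * θ / σ) * Real.sqrt (Real.log n * Real.log (Real.log n))) ≤ B := by
  obtain ⟨c, hc, h⟩ := family
  refine ⟨c, hc, fun α θ σ C hα0 hα1 hθ0 hθ1 hσ hC => ?_⟩
  obtain ⟨n₀, hn₀⟩ := h (α * θ) (α * σ) (C * C) (by positivity)
    (mul_le_one₀ hα1 hθ0.le hθ1) (by positivity) (by positivity)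
  refine ⟨n₀, fun n hn ρ A B hρ hk => ?_⟩
  obtain ⟨G, i1, i2, E, v, M, η, ε, hM, hη, hε, hd, hf, hp, hnum⟩ := hn₀ n hn
  obtain ⟨s, hs⟩ : ∃ s : ℝ, s = Real.sqrt (Real.log n * Real.log (Real.log n)) := ⟨_, rfl⟩
  rw [← hs] at hnum ⊢
  have hcard : (0 : ℝ) < (Fintype.card G : ℝ) := by
    have : 0 < Fintype.card G := Fintype.card_pos_iff.2 ⟨0⟩
    exact_mod_cast this
  have hED0 : ∀ x y, 0 ≤ binED n x y := fun x y => Nat.cast_nonneg _
  have hpos : 0 < binED n (E 0) (E (0 + v)) := lt_of_lt_of_le (by positivity) (hf 0)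
  have hpos' : 0 < binED n (E 0) (E (0 + v)) ^ α := Real.rpow_pos_of_pos hpos _
  rcases le_or_gt A 0 with hA | hA
  · have h1 := (hρ (E 0) (E (0 + v))).1.trans (hρ (E 0) (E (0 + v))).2
    have h2 : A ≤ B := le_of_mul_le_mul_right h1 hpos'
    have h3 : 0 ≤ c * (α * θ / σ) * s := by
      have : 0 ≤ s := by rw [hs]; exact Real.sqrt_nonneg _
      positivity
    have h4 : 1 ≤ Real.exp (c * (α * θ / σ) * s) := Real.one_le_exp h3
    nlinarith only [h2, h4, hA]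
  · have hB : 0 < B := by
      have h1 := (hρ (E 0) (E (0 + v))).1.trans (hρ (E 0) (E (0 + v))).2
      have h2 : A ≤ B := le_of_mul_le_mul_right h1 hpos'
      linarith
    have hMα : 0 < M ^ α := Real.rpow_pos_of_pos hM _
    have hBM : 0 < B * M ^ α := by positivity
    obtain ⟨k, hkN, hku, hkl⟩ := hk G E (B * M ^ α) hBM (fun x y =>
      (hρ _ _).2.trans (mul_le_mul_of_nonneg_left
        (Real.rpow_le_rpow (hED0 _ _) (hd x y) hα0.le) hB.le))
    have hρ0 : ∀ x y, 0 ≤ ρ (E x) (E y) := fun x y =>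
      le_trans (mul_nonneg hA.le (Real.rpow_nonneg (hED0 _ _) _)) (hρ _ _).1
    have h1 := hp k hkN C hC.le (fun x y => by
      refine (hku x y).trans (mul_le_mul_of_nonneg_left ?_ hC.le)
      rw [Real.rpow_mul (div_nonneg (hED0 _ _) hM.le)]
      apply Real.rpow_le_rpow (div_nonneg (hρ0 x y) hBM.le) _ hθ0.le
      rw [Real.div_rpow (hED0 _ _) hM.le, div_le_div_iff₀ hBM hMα]
      calc ρ (E x) (E y) * M ^ α ≤ (B * binED n (E x) (E y) ^ α) * M ^ α :=
            mul_le_mul_of_nonneg_right (hρ _ _).2 hMα.le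
        _ = binED n (E x) (E y) ^ α * (B * M ^ α) := by ring)
    have hηα : 0 < η ^ α := Real.rpow_pos_of_pos hη _
    have h2 : ∀ x, (A / B * η ^ α) ^ σ ≤ C * k x (x + v) := by
      intro x
      refine le_trans (Real.rpow_le_rpow (by positivity) ?_ hσ.le) (hkl x (x + v))
      rw [le_div_iff₀ hBM]
      calc A / B * η ^ α * (B * M ^ α) = A * (η ^ α * M ^ α) := by field_simp
        _ = A * (η * M) ^ α := by rw [Real.mul_rpow hη.le hM.le]
        _ ≤ A * binED n (E x) (E (x + v)) ^ α :=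
            mul_le_mul_of_nonneg_left (Real.rpow_le_rpow (by positivity) (hf x) hα0.le) hA.le
        _ ≤ _ := (hρ _ _).1
    have h3 : (Fintype.card G : ℝ) * (A / B * η ^ α) ^ σ ≤ C * ∑ x, k x (x + v) := by
      rw [Finset.mul_sum]
      calc (Fintype.card G : ℝ) * (A / B * η ^ α) ^ σ = ∑ _x : G, (A / B * η ^ α) ^ σ := by
            rw [Finset.sum_const, Finset.card_univ, nsmul_eq_mul]
        _ ≤ _ := Finset.sum_le_sum fun x _ => h2 x
    have h4 : (A / B * η ^ α) ^ σ ≤ C * (C * ε) := by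
      have h5 : (Fintype.card G : ℝ) * (A / B * η ^ α) ^ σ ≤ (Fintype.card G : ℝ) * (C * (C * ε)) :=
        h3.trans ((mul_le_mul_of_nonneg_left h1 hC.le).trans (le_of_eq (by ring)))
      exact le_of_mul_le_mul_left h5 hcard
    have h6 : (A / B) ^ σ * (C * C * ε * Real.exp (c * (α * θ) * s)) ≤ C * (C * ε) := by
      refine le_trans (mul_le_mul_of_nonneg_left hnum (by positivity)) ?_
      rw [Real.rpow_mul hη.le, ← Real.mul_rpow (by positivity) hηα.le]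
      exact h4
    have h7 : (A / B) ^ σ * Real.exp (c * (α * θ) * s) ≤ 1 := by
      have h8 : 0 < C * C * ε := by positivity
      have h9 : (C * C * ε) * ((A / B) ^ σ * Real.exp (c * (α * θ) * s)) ≤ (C * C * ε) * 1 := by
        calc (C * C * ε) * ((A / B) ^ σ * Real.exp (c * (α * θ) * s))
            = (A / B) ^ σ * (C * C * ε * Real.exp (c * (α * θ) * s)) := by ring
          _ ≤ C * (C * ε) := h6
          _ = (C * C * ε) * 1 := by ring
      exact le_of_mul_le_mul_left h9 h8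
    have h10 : (A / B * Real.exp (c * (α * θ / σ) * s)) ^ σ ≤ 1 := by
      rw [Real.mul_rpow (by positivity) (Real.exp_pos _).le, ← Real.exp_mul]
      have e : c * (α * θ / σ) * s * σ = c * (α * θ) * s := by field_simp
      rw [e]
      exact h7
    have h11 : A / B * Real.exp (c * (α * θ / σ) * s) ≤ 1 := by
      by_contra hcon
      have h12 := Real.one_lt_rpow (not_le.1 hcon) hσ
      linarith
    rw [div_mul_eq_mul_div, div_le_one hB] at h11
    exact h11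

end Vale.Agent.P238.H651
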