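import Vale.Agent.P238.H142.Final

/-!
# P238: the group of words, restricted to the words which are used
-/

set_option autoImplicit false

namespace Vale.Agent.P238.H651

open Vale.Agent.P238 Vale.Agent.P238.Full Vale.Agent.P238.H474 Vale.Agent.P238.H142 Finset

/-- The family of words with `L` levels: a finite abelian group `G`, words `E x` of length `n`
which are all within distance `M`, an element `v` such that `E x` and `E (x + v)` are far away,
and a Poincare inequality for kernels of negative type. -/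
theorem exists_family (C : ℕ) (hC : 1 ≤ C)
    (hpr : ∀ m : ℕ, 2 ≤ m → Nat.nth Nat.Prime (2 * m) ≤ m ^ C) {L n : ℕ} (hL : 4 * C + 2 ≤ L)
    (hn : L ^ ((6 * C + 17) * L ^ 2) ≤ n) :
    ∃ (G : Type) (_ : AddCommGroup G) (_ : Fintype G) (E : G → (Fin n → Bool)) (v : G) (M : ℝ),
      0 < M ∧ (∀ x y, binED n (E x) (E y) ≤ M) ∧
      (∀ x, (1 / 2 : ℝ) ^ L / (L : ℝ) ^ (6 * C + 17) * M ≤ binED n (E x) (E (x + v))) ∧
      ∀ θ : ℝ, 0 < θ → θ ≤ 1 → (((4 * C + 2) * L : ℕ) : ℝ) ^ (1 - θ) ≤ L →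
        ∀ k : G → G → ℝ, Neg k → ∀ B : ℝ, 0 ≤ B →
          (∀ x y, k x y ≤ B * (binED n (E x) (E y) / M) ^ θ) →
          ∑ x, k x (x + v) ≤ (Fintype.card G : ℝ) *
            (B * (4 * (3 * ((((4 * C + 2) * L : ℕ) : ℝ) ^ (1 - θ) / L)) ^ L)) := by
  classical
  obtain ⟨N, d, q, hN, hq, ⟨D, hDT⟩, hd, hdN⟩ := exists_dataT C hC hpr L hL
  obtain ⟨W, hW⟩ : ∃ W : D.G → List ℕ, W = fun x => win (D.X x) 0 N := ⟨_, rfl⟩
  have hWlen : ∀ x, (W x).length = N := fun x => by rw [hW]; exact win_length _ _ _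
  have hWlt : ∀ x, ∀ b ∈ W x, b < 2 ^ d := fun x b hb => by
    rw [hW] at hb
    exact lt_of_lt_of_le (win_lt (D.hX x) 0 N b hb) hq
  have hn' : ∀ x, (2 * d + 3) * (W x).length ≤ n := fun x => by rw [hWlen]; exact hdN.trans hn
  obtain ⟨E, hE⟩ : ∃ E : D.G → (Fin n → Bool), E = fun x => encFn d n (W x) := ⟨_, rfl⟩
  have hN0 : (0 : ℝ) < N := by exact_mod_cast hN
  have hδ0 : (0 : ℝ) < (1 / 2 : ℝ) ^ L := by positivity
  have hd0 : (0 : ℝ) < ((2 * d + 3 : ℕ) : ℝ) := by positivity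
  have hL0 : (0 : ℝ) < (L : ℝ) := by
    have : 0 < L := by omega
    exact_mod_cast this
  obtain ⟨M, hM⟩ : ∃ M : ℝ, M = ((2 * d + 3 : ℕ) : ℝ) * N := ⟨_, rfl⟩
  have hM0 : 0 < M := by rw [hM]; positivity
  -- the far pairs
  have hfar : ∀ x, (1 / 2 : ℝ) ^ L / 2 * N ≤ binED n (E x) (E (x + D.v)) := by
    intro x
    have e1 := D.hF x 1 (by decide) 0 N (by omega)
    rw [one_zsmul] at e1
    have e2 := binED_encFn_ge (n := n) (hWlt x) (hWlt (x + D.v)) (by rw [hWlen, hWlen]) (hn' x)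
    have e3 : (ED (W x) (W (x + D.v)) : ℝ) = (ED (win (D.X x) 0 N) (win (D.X (x + D.v)) 0 N) : ℝ) := by
      rw [hW]
    rw [hE]
    linarith
  -- the close pairs
  have hclose : ∀ a x, binED n (E x) (E (x + D.g a)) ≤ (2 * d + 3 : ℕ) * D.d a := by
    intro a x
    have e2 := binED_encFn_le (n := n) (d := d) (x := W x) (y := W (x + D.g a))
      (by rw [hWlen, hWlen]) (hn' x)
    have e3 : (ED (W x) (W (x + D.g a)) : ℝ) ≤ D.d a := by
      rw [hW]
      exact D.hC a x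
    rw [hE]
    exact e2.trans (mul_le_mul_of_nonneg_left e3 (Nat.cast_nonneg _))
  have hdiam : ∀ x y, binED n (E x) (E y) ≤ M := by
    intro x y
    have e2 := binED_encFn_le (n := n) (d := d) (x := W x) (y := W y)
      (by rw [hWlen, hWlen]) (hn' x)
    have e3 : (ED (W x) (W y) : ℝ) ≤ N := by
      have := ED_le_max (W x) (W y)
      rw [hWlen, hWlen, max_self] at this
      exact_mod_cast this
    rw [hE, hM]
    exact e2.trans (mul_le_mul_of_nonneg_left e3 (Nat.cast_nonneg _))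
  have hcard : (0 : ℝ) < (Fintype.card D.G : ℝ) := by
    have : 0 < Fintype.card D.G := Fintype.card_pos_iff.2 ⟨0⟩
    exact_mod_cast this
  have h8 : (8 * ((2 * d + 3 : ℕ) : ℝ)) ≤ (L : ℝ) ^ (6 * C + 17) := by exact_mod_cast hd
  refine ⟨D.G, inferInstance, inferInstance, E, D.v, M, hM0, hdiam, ?_, ?_⟩
  · intro x
    refine le_trans ?_ (hfar x)
    rw [hM, div_mul_eq_mul_div, div_le_iff₀ (by positivity)]
    calc (1 / 2 : ℝ) ^ L * (((2 * d + 3 : ℕ) : ℝ) * N)
        = (1 / 2 : ℝ) ^ L * N * ((2 * d + 3 : ℕ) : ℝ) := by ring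
      _ ≤ (1 / 2 : ℝ) ^ L * N * ((L : ℝ) ^ (6 * C + 17) / 2) := by
          apply mul_le_mul_of_nonneg_left _ (by positivity)
          linarith
      _ = (1 / 2 : ℝ) ^ L / 2 * N * (L : ℝ) ^ (6 * C + 17) := by ring
  · intro θ hθ0 hθ1 hθL k hk B hB hkB
    have hcost := hDT θ hθ0 hθ1 hθL
    obtain ⟨κ, hκ⟩ : ∃ κ : ℝ, κ = (3 * ((((4 * C + 2) * L : ℕ) : ℝ) ^ (1 - θ) / L)) ^ L :=
      ⟨_, rfl⟩
    rw [← hκ] at hcost ⊢
    have hP := poincare_neg D.v D.g D.w D.hK D.hw hk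
    have hNθ : 0 < (N : ℝ) ^ θ := by positivity
    -- upper bound for the close pairs
    have h2 : ∀ a, ∑ x, k x (x + D.g a) ≤ (Fintype.card D.G : ℝ) * (B * (D.d a ^ θ / (N : ℝ) ^ θ)) := by
      intro a
      have h3 : ∀ x, k x (x + D.g a) ≤ B * (D.d a ^ θ / (N : ℝ) ^ θ) := by
        intro x
        refine (hkB _ _).trans (mul_le_mul_of_nonneg_left ?_ hB)
        have hb0 : 0 ≤ binED n (E x) (E (x + D.g a)) := Nat.cast_nonneg _
        rw [← Real.div_rpow (D.hd a) hN0.le]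
        apply Real.rpow_le_rpow (by positivity) _ hθ0.le
        rw [hM, div_le_div_iff₀ (by positivity) hN0]
        calc binED n (E x) (E (x + D.g a)) * N ≤ ((2 * d + 3 : ℕ) * D.d a) * N :=
              mul_le_mul_of_nonneg_right (hclose a x) hN0.le
          _ = D.d a * (((2 * d + 3 : ℕ) : ℝ) * N) := by ring
      refine (Finset.sum_le_sum fun x _ => h3 x).trans (le_of_eq ?_)
      rw [Finset.sum_const, Finset.card_univ, nsmul_eq_mul]
    have h4 : ∑ a, D.w a * ∑ x, k x (x + D.g a) ≤ (Fintype.card D.G : ℝ) * (B * κ) := by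
      calc ∑ a, D.w a * ∑ x, k x (x + D.g a)
          ≤ ∑ a, D.w a * ((Fintype.card D.G : ℝ) * (B * (D.d a ^ θ / (N : ℝ) ^ θ))) :=
            Finset.sum_le_sum fun a _ => mul_le_mul_of_nonneg_left (h2 a) (D.hw a)
        _ = (Fintype.card D.G : ℝ) * (B * ((∑ a, D.w a * D.d a ^ θ) / (N : ℝ) ^ θ)) := by
            rw [Finset.sum_div, Finset.mul_sum, Finset.mul_sum]
            apply Finset.sum_congr rfl
            intro a _
            ring
        _ ≤ (Fintype.card D.G : ℝ) * (B * κ) := by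
            apply mul_le_mul_of_nonneg_left _ hcard.le
            apply mul_le_mul_of_nonneg_left _ hB
            rw [div_le_iff₀ hNθ]
            exact hcost
    refine hP.trans ?_
    linarith only [h4]

end Vale.Agent.P238.H651
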