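import Vale.Agent.P238.H651.Mazur

/-!
# P238: targets `L_p`, `p < ∞`, and targets whose ball embeds bi-Hölderly into a Hilbert space
-/

set_option autoImplicit false

namespace Vale.Agent.P238.H651

open Vale.Agent.P238 Vale.Agent.P238.Full Vale.Agent.P238.H474 Vale.Agent.P238.H142 Finset Filter
open MeasureTheory

universe u v

/-- Every `L_p`, `1 ≤ p < ∞`. -/
theorem lp_target : ∃ c : ℝ, 0 < c ∧ ∀ p α : ℝ, 1 ≤ p → 0 < α → α ≤ 1 →
    ∃ n₀ : ℕ, ∀ n : ℕ, n₀ ≤ n → ∀ (Ω : Type u) [MeasurableSpace Ω] (μ : Measure Ω)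
      (F : (Fin n → Bool) → Lp ℝ (ENNReal.ofReal p) μ) (A B : ℝ),
      (∀ x y, A * binED n x y ^ α ≤ ‖F x - F y‖ ∧ ‖F x - F y‖ ≤ B * binED n x y ^ α) →
      A * Real.exp (c * (α / p) * Real.sqrt (Real.log n * Real.log (Real.log n))) ≤ B := by
  classical
  obtain ⟨c, hc, h⟩ := abstract_lower
  refine ⟨c, hc, fun p α hp hα0 hα1 => ?_⟩
  have hp0 : 0 < p := by linarith
  obtain ⟨C, hC⟩ : ∃ C : ℝ, C = 1 + (p / 2) ^ 2 * (1 + 2 ^ (p + 1)) + 2 ^ p := ⟨_, rfl⟩
  have h2p : (0 : ℝ) < 2 ^ p := by positivity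
  have hC1 : 1 ≤ C := by
    rw [hC]
    have : 0 ≤ (p / 2) ^ 2 * (1 + (2 : ℝ) ^ (p + 1)) := by positivity
    linarith
  obtain ⟨n₀, hn₀⟩ := h α 1 p C hα0 hα1 one_pos le_rfl hp0 (by linarith)
  refine ⟨n₀, fun n hn Ω _ μ F A B hF => ?_⟩
  have hfact : Fact (1 ≤ ENNReal.ofReal p) := ⟨by
    rw [← ENNReal.ofReal_one]
    exact ENNReal.ofReal_le_ofReal hp⟩
  have key := hn₀ n hn (fun x y => ‖F x - F y‖) A B hF ?_
  · rw [mul_one] at key
    exact key
  · intro G _ _ E R hR hER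
    obtain ⟨f, hf⟩ : ∃ f : G → Lp ℝ (ENNReal.ofReal p) μ,
        f = fun x => R⁻¹ • (F (E x) - F (E 0)) := ⟨_, rfl⟩
    have hfd : ∀ x y, ‖f x - f y‖ = ‖F (E x) - F (E y)‖ / R := by
      intro x y
      rw [hf]
      simp only
      rw [← smul_sub, sub_sub_sub_cancel_right, norm_smul, norm_inv, Real.norm_eq_abs,
        abs_of_pos hR, inv_mul_eq_div]
    have hfn : ∀ x, ‖f x‖ ≤ 1 := by
      intro x
      rw [hf]
      simp only
      rw [norm_smul, norm_inv, Real.norm_eq_abs, abs_of_pos hR, inv_mul_eq_div, div_le_one hR]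
      exact hER x 0
    have hfd1 : ∀ x y, ‖f x - f y‖ ≤ 1 := fun x y => by
      rw [hfd, div_le_one hR]
      exact hER x y
    rcases le_total p 2 with hp2 | hp2
    · -- negative type
      refine ⟨fun x y => ‖f x - f y‖, neg_Lp μ hp hp2 f, fun x y => ?_, fun x y => ?_⟩
      · rw [Real.rpow_one, ← hfd]
        exact le_mul_of_one_le_left (norm_nonneg _) hC1
      · rw [← hfd]
        calc ‖f x - f y‖ ^ p ≤ ‖f x - f y‖ ^ (1 : ℝ) :=
              Real.rpow_le_rpow_of_exponent_ge' (norm_nonneg _) (hfd1 x y) zero_le_one hp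
          _ = ‖f x - f y‖ := Real.rpow_one _
          _ ≤ C * ‖f x - f y‖ := le_mul_of_one_le_left (norm_nonneg _) hC1
    · -- the Mazur map
      have hq : 1 ≤ p / 2 := by linarith
      have hpq : p = 2 * (p / 2) := by ring
      have hneg := neg_mzK hq hpq f
      refine ⟨fun x y => mzK (p / 2) (f x) (f y) μ, hneg, fun x y => ?_, fun x y => ?_⟩
      · rw [Real.rpow_one, ← hfd]
        refine (mzK_upper hq hpq (f x) (f y) (hfn x) (hfn y) (hfd1 x y)).trans ?_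
        apply mul_le_mul_of_nonneg_right _ (norm_nonneg _)
        rw [hC]
        linarith
      · rw [← hfd]
        refine (mzK_lower hq hpq (f x) (f y)).trans ?_
        apply mul_le_mul_of_nonneg_right _ (hneg.nonneg x y)
        rw [hC]
        have : 0 ≤ (p / 2) ^ 2 * (1 + (2 : ℝ) ^ (p + 1)) := by positivity
        linarith

/-- Every normed space whose closed unit ball has a bi-Hölder map into a Hilbert space. -/
theorem ball_target : ∃ c : ℝ, 0 < c ∧ ∀ s t C α : ℝ, 0 < s → 0 < t → 0 < α → α ≤ 1 →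
    ∃ n₀ : ℕ, ∀ n : ℕ, n₀ ≤ n → ∀ (Y : Type u) [NormedAddCommGroup Y] [NormedSpace ℝ Y]
      (H : Type v) [NormedAddCommGroup H] [InnerProductSpace ℝ H] (φ : Y → H),
      (∀ y z : Y, ‖y‖ ≤ 1 → ‖z‖ ≤ 1 →
        ‖y - z‖ ^ s ≤ C * ‖φ y - φ z‖ ∧ ‖φ y - φ z‖ ≤ C * ‖y - z‖ ^ t) →
      ∀ (F : (Fin n → Bool) → Y) (A B : ℝ),
      (∀ x y, A * binED n x y ^ α ≤ ‖F x - F y‖ ∧ ‖F x - F y‖ ≤ B * binED n x y ^ α) →
      A * Real.exp (c * (α * min 1 t / s) * Real.sqrt (Real.log n * Real.log (Real.log n))) ≤ B := by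
  classical
  obtain ⟨c, hc, h⟩ := abstract_lower
  refine ⟨c / 2, by positivity, fun s t C α hs ht hα0 hα1 => ?_⟩
  have hmin0 : 0 < min 1 t := lt_min one_pos ht
  obtain ⟨D, hD⟩ : ∃ D : ℝ, D = max C 1 := ⟨_, rfl⟩
  have hD1 : 1 ≤ D := by rw [hD]; exact le_max_right _ _
  have hCD : C ≤ D := by rw [hD]; exact le_max_left _ _
  obtain ⟨n₀, hn₀⟩ := h α (min 1 t) (2 * s) (D ^ 2) hα0 hα1 hmin0 (min_le_left _ _)
    (by positivity) (by positivity)
  refine ⟨n₀, fun n hn Y _ _ H _ _ φ hφ F A B hF => ?_⟩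
  have key := hn₀ n hn (fun x y => ‖F x - F y‖) A B hF ?_
  · have e : c * (α * min 1 t / (2 * s)) = c / 2 * (α * min 1 t / s) := by
      field_simp
    rw [e] at key
    exact key
  · intro G _ _ E R hR hER
    obtain ⟨f, hf⟩ : ∃ f : G → Y, f = fun x => R⁻¹ • (F (E x) - F (E 0)) := ⟨_, rfl⟩
    have hfd : ∀ x y, ‖f x - f y‖ = ‖F (E x) - F (E y)‖ / R := by
      intro x y
      rw [hf]
      simp only
      rw [← smul_sub, sub_sub_sub_cancel_right, norm_smul, norm_inv, Real.norm_eq_abs,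
        abs_of_pos hR, inv_mul_eq_div]
    have hfn : ∀ x, ‖f x‖ ≤ 1 := by
      intro x
      rw [hf]
      simp only
      rw [norm_smul, norm_inv, Real.norm_eq_abs, abs_of_pos hR, inv_mul_eq_div, div_le_one hR]
      exact hER x 0
    have hfd1 : ∀ x y, ‖f x - f y‖ ≤ 1 := fun x y => by
      rw [hfd, div_le_one hR]
      exact hER x y
    refine ⟨fun x y => ‖φ (f x) - φ (f y)‖ ^ 2, neg_sq fun x => φ (f x), fun x y => ?_,
      fun x y => ?_⟩
    · rw [← hfd]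
      have h0 := norm_nonneg (f x - f y)
      have h1 := (hφ (f x) (f y) (hfn x) (hfn y)).2
      have h2 : ‖φ (f x) - φ (f y)‖ ≤ D * ‖f x - f y‖ ^ t :=
        h1.trans (mul_le_mul_of_nonneg_right hCD (Real.rpow_nonneg h0 _))
      have e : (‖f x - f y‖ ^ t) ^ 2 = ‖f x - f y‖ ^ (2 * t) := by
        rw [← Real.rpow_natCast, ← Real.rpow_mul h0]
        congr 1
        push_cast
        ring
      calc ‖φ (f x) - φ (f y)‖ ^ 2 ≤ (D * ‖f x - f y‖ ^ t) ^ 2 :=
            pow_le_pow_left₀ (norm_nonneg _) h2 2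
        _ = D ^ 2 * ‖f x - f y‖ ^ (2 * t) := by rw [mul_pow, e]
        _ ≤ D ^ 2 * ‖f x - f y‖ ^ (min 1 t) := by
            apply mul_le_mul_of_nonneg_left _ (by positivity)
            exact Real.rpow_le_rpow_of_exponent_ge' h0 (hfd1 x y) hmin0.le
              ((min_le_right _ _).trans (by linarith))
    · rw [← hfd]
      have h0 := norm_nonneg (f x - f y)
      have h1 := (hφ (f x) (f y) (hfn x) (hfn y)).1
      have h2 : ‖f x - f y‖ ^ s ≤ D * ‖φ (f x) - φ (f y)‖ :=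
        h1.trans (mul_le_mul_of_nonneg_right hCD (norm_nonneg _))
      have e : (‖f x - f y‖ ^ s) ^ 2 = ‖f x - f y‖ ^ (2 * s) := by
        rw [← Real.rpow_natCast, ← Real.rpow_mul h0]
        congr 1
        push_cast
        ring
      rw [← e]
      calc (‖f x - f y‖ ^ s) ^ 2 ≤ (D * ‖φ (f x) - φ (f y)‖) ^ 2 :=
            pow_le_pow_left₀ (Real.rpow_nonneg h0 _) h2 2
        _ = D ^ 2 * ‖φ (f x) - φ (f y)‖ ^ 2 := by rw [mul_pow]

end Vale.Agent.P238.H651
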