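import Vale.Agent.P238.H651.Core

/-!
# P238: the Mazur map and targets `L_p`, `p < ∞`; targets with a bi-Hölder ball
-/

set_option autoImplicit false

namespace Vale.Agent.P238.H651

open Vale.Agent.P238 Vale.Agent.P238.Full Vale.Agent.P238.H474 Vale.Agent.P238.H142 Finset Filter
open MeasureTheory

/-- The Mazur map on the line. -/
noncomputable def mz (q t : ℝ) : ℝ := t * |t| ^ (q - 1)

theorem mz_neg (q t : ℝ) : mz q (-t) = -mz q t := by simp [mz]

theorem mz_of_nonneg {q t : ℝ} (hq : 1 ≤ q) (ht : 0 ≤ t) : mz q t = t ^ q := by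
  rw [mz, abs_of_nonneg ht]
  rcases ht.eq_or_lt with rfl | ht
  · rw [zero_mul, Real.zero_rpow (by linarith)]
  · nth_rewrite 1 [← Real.rpow_one t]
    rw [← Real.rpow_add ht]
    congr 1
    ring

theorem abs_mz {q : ℝ} (hq : 1 ≤ q) (t : ℝ) : |mz q t| = |t| ^ q := by
  rcases le_total 0 t with ht | ht
  · rw [mz_of_nonneg hq ht, abs_of_nonneg ht, abs_of_nonneg (Real.rpow_nonneg ht _)]
  · have h := mz_of_nonneg hq (neg_nonneg.2 ht)
    rw [mz_neg] at h
    rw [← abs_neg, h, abs_of_nonpos ht, abs_of_nonneg (Real.rpow_nonneg (by linarith) _)]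

theorem measurable_mz (q : ℝ) : Measurable (mz q) := by
  unfold mz
  exact measurable_id.mul ((measurable_id.abs).pow_const _)

theorem mz_upper {q : ℝ} (hq : 1 ≤ q) (a b : ℝ) :
    |mz q a - mz q b| ≤ q * |a - b| * (|a| + |b|) ^ (q - 1) := by
  wlog hab : |b| ≤ |a| generalizing a b
  · have h := this b a (le_of_not_ge hab)
    rw [abs_sub_comm, abs_sub_comm a b, add_comm |a|]
    exact h
  wlog ha : 0 ≤ a generalizing a b
  · have h := this (-a) (-b) (by rwa [abs_neg, abs_neg]) (by linarith [not_le.1 ha])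
    rw [mz_neg, mz_neg, abs_neg, abs_neg] at h
    have e1 : |-mz q a - -mz q b| = |mz q a - mz q b| := by rw [← abs_neg]; congr 1; ring
    have e2 : |-a - -b| = |a - b| := by rw [← abs_neg]; congr 1; ring
    rwa [e1, e2] at h
  rw [abs_of_nonneg ha] at hab ⊢
  have hq0 : 0 ≤ q - 1 := by linarith
  rcases le_total 0 b with hb | hb
  · rw [abs_of_nonneg hb] at hab ⊢
    rw [mz_of_nonneg hq ha, mz_of_nonneg hq hb, abs_of_nonneg (sub_nonneg.2 hab),
      abs_of_nonneg (sub_nonneg.2 (Real.rpow_le_rpow hb hab (by linarith)))]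
    rcases ha.eq_or_lt with ha' | ha'
    · have hb' : b = 0 := by linarith
      subst hb'
      rw [← ha']
      simp
    · have h1 := one_add_mul_self_le_rpow_one_add (s := b / a - 1)
        (by have := div_nonneg hb ha'.le; linarith) hq
      have e1 : 1 + (b / a - 1) = b / a := by ring
      rw [e1, Real.div_rpow hb ha'.le] at h1
      have h2 : 0 < a ^ q := Real.rpow_pos_of_pos ha' _
      rw [le_div_iff₀ h2] at h1
      have e3 : a ^ q = a * a ^ (q - 1) := by
        nth_rewrite 2 [← Real.rpow_one a]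
        rw [← Real.rpow_add ha']
        congr 1
        ring
      have h3 : a ^ q - b ^ q ≤ q * (a - b) * a ^ (q - 1) := by
        have e4 : (1 + q * (b / a - 1)) * a ^ q = a ^ q - q * (a - b) * a ^ (q - 1) := by
          rw [e3]
          field_simp
          ring
        linarith
      refine h3.trans (mul_le_mul_of_nonneg_left ?_ (mul_nonneg (by linarith) (sub_nonneg.2 hab)))
      exact Real.rpow_le_rpow ha (by linarith) hq0
  · rw [abs_of_nonpos hb] at hab ⊢
    have hb' : 0 ≤ -b := by linarith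
    have e1 : mz q b = -(-b) ^ q := by
      have h := mz_of_nonneg hq hb'
      rw [mz_neg] at h
      linarith
    have e2 : |a - b| = a + -b := by rw [abs_of_nonneg (by linarith)]; ring
    have e3 : |a ^ q - -(-b) ^ q| = a ^ q + (-b) ^ q := by
      have h1 := Real.rpow_nonneg ha q
      have h2 := Real.rpow_nonneg hb' q
      rw [abs_of_nonneg (by linarith)]
      ring
    rw [mz_of_nonneg hq ha, e1, e2, e3]
    have key : ∀ z : ℝ, 0 ≤ z → z ≤ a + -b → z ^ q ≤ z * (a + -b) ^ (q - 1) := by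
      intro z hz hz2
      rcases hz.eq_or_lt with rfl | hz'
      · rw [Real.zero_rpow (by linarith), zero_mul]
      · have e4 : z ^ q = z * z ^ (q - 1) := by
          nth_rewrite 2 [← Real.rpow_one z]
          rw [← Real.rpow_add hz']
          congr 1
          ring
        rw [e4]
        exact mul_le_mul_of_nonneg_left (Real.rpow_le_rpow hz hz2 hq0) hz
    have h1 := key a ha (by linarith)
    have h2 := key (-b) hb' (by linarith)
    have h3 : 0 ≤ (a + -b) * (a + -b) ^ (q - 1) :=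
      mul_nonneg (by linarith) (Real.rpow_nonneg (by linarith) _)
    calc a ^ q + (-b) ^ q ≤ (a + -b) * (a + -b) ^ (q - 1) := by rw [add_mul]; exact add_le_add h1 h2
      _ ≤ q * ((a + -b) * (a + -b) ^ (q - 1)) := le_mul_of_one_le_left h3 hq
      _ = _ := by ring

theorem mz_lower {q : ℝ} (hq : 1 ≤ q) (a b : ℝ) : |a - b| ^ q ≤ 2 ^ q * |mz q a - mz q b| := by
  wlog hab : |b| ≤ |a| generalizing a b
  · have h := this b a (le_of_not_ge hab)
    rw [abs_sub_comm, abs_sub_comm (mz q a)]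
    exact h
  wlog ha : 0 ≤ a generalizing a b
  · have h := this (-a) (-b) (by rwa [abs_neg, abs_neg]) (by linarith [not_le.1 ha])
    rw [mz_neg, mz_neg] at h
    have e1 : |-mz q a - -mz q b| = |mz q a - mz q b| := by rw [← abs_neg]; congr 1; ring
    have e2 : |-a - -b| = |a - b| := by rw [← abs_neg]; congr 1; ring
    rwa [e1, e2] at h
  rw [abs_of_nonneg ha] at hab
  have h2q : (1 : ℝ) ≤ 2 ^ q := Real.one_le_rpow (by norm_num) (by linarith)
  rcases le_total 0 b with hb | hb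
  · rw [abs_of_nonneg hb] at hab
    rw [mz_of_nonneg hq ha, mz_of_nonneg hq hb, abs_of_nonneg (sub_nonneg.2 hab),
      abs_of_nonneg (sub_nonneg.2 (Real.rpow_le_rpow hb hab (by linarith)))]
    have h1 := Real.add_rpow_le_rpow_add (sub_nonneg.2 hab) hb hq
    rw [sub_add_cancel] at h1
    have h2 : 0 ≤ a ^ q - b ^ q := sub_nonneg.2 (Real.rpow_le_rpow hb hab (by linarith))
    calc (a - b) ^ q ≤ a ^ q - b ^ q := by linarith
      _ ≤ 2 ^ q * (a ^ q - b ^ q) := le_mul_of_one_le_left h2 h2q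
  · rw [abs_of_nonpos hb] at hab
    have hb' : 0 ≤ -b := by linarith
    have e1 : mz q b = -(-b) ^ q := by
      have h := mz_of_nonneg hq hb'
      rw [mz_neg] at h
      linarith
    have h1 := Real.rpow_nonneg ha q
    have h2 := Real.rpow_nonneg hb' q
    have e3 : |a ^ q - -(-b) ^ q| = a ^ q + (-b) ^ q := by
      rw [abs_of_nonneg (by linarith)]
      ring
    rw [mz_of_nonneg hq ha, e1, e3, abs_of_nonneg (by linarith)]
    calc (a - b) ^ q ≤ (2 * a) ^ q := Real.rpow_le_rpow (by linarith) (by linarith) (by linarith)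
      _ = 2 ^ q * a ^ q := Real.mul_rpow (by norm_num) ha
      _ ≤ _ := by
        apply mul_le_mul_of_nonneg_left _ (by positivity)
        linarith

section lp

variable {Ω : Type*} [MeasurableSpace Ω] {μ : Measure Ω} {p : ℝ}

theorem norm_rpow_eq (hp : 0 < p) (g : Lp ℝ (ENNReal.ofReal p) μ) :
    ‖g‖ ^ p = ∫ ω, |g ω| ^ p ∂μ := by
  have hpe : (ENNReal.ofReal p) ≠ 0 := by
    simp only [ne_eq, ENNReal.ofReal_eq_zero, not_le]; exact hp
  have hpt : (ENNReal.ofReal p) ≠ ⊤ := ENNReal.ofReal_ne_top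
  have htr : (ENNReal.ofReal p).toReal = p := ENNReal.toReal_ofReal hp.le
  have h0 : 0 ≤ ∫ ω, |g ω| ^ p ∂μ := integral_nonneg fun ω => by positivity
  have := (Lp.memLp g).eLpNorm_eq_integral_rpow_norm hpe hpt
  rw [htr] at this
  rw [Lp.norm_def, this, ENNReal.toReal_ofReal (Real.rpow_nonneg (integral_nonneg fun ω => by
    positivity) _)]
  simp only [Real.norm_eq_abs]
  rw [← Real.rpow_mul h0, inv_mul_cancel₀ hp.ne', Real.rpow_one]

theorem integrable_rpow (hp : 0 < p) (g : Lp ℝ (ENNReal.ofReal p) μ) :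
    Integrable (fun ω => |g ω| ^ p) μ := by
  have hpe : (ENNReal.ofReal p) ≠ 0 := by
    simp only [ne_eq, ENNReal.ofReal_eq_zero, not_le]; exact hp
  have hpt : (ENNReal.ofReal p) ≠ ⊤ := ENNReal.ofReal_ne_top
  have htr : (ENNReal.ofReal p).toReal = p := ENNReal.toReal_ofReal hp.le
  have := (Lp.memLp g).integrable_norm_rpow hpe hpt
  rw [htr] at this
  simpa only [Real.norm_eq_abs] using this

theorem mz_sq_le {q : ℝ} (hq : 1 ≤ q) (a b : ℝ) :
    (mz q a - mz q b) ^ 2 ≤ 2 * |a| ^ (2 * q) + 2 * |b| ^ (2 * q) := by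
  have h1 : ∀ t : ℝ, (mz q t) ^ 2 = |t| ^ (2 * q) := by
    intro t
    rw [← sq_abs, abs_mz hq, ← Real.rpow_natCast, ← Real.rpow_mul (abs_nonneg _)]
    congr 1
    push_cast
    ring
  rw [← h1, ← h1]
  nlinarith only [sq_nonneg (mz q a + mz q b)]

theorem integrable_mz {q : ℝ} (hq : 1 ≤ q) (hp : p = 2 * q) (g h : Lp ℝ (ENNReal.ofReal p) μ) :
    Integrable (fun ω => (mz q (g ω) - mz q (h ω)) ^ 2) μ := by
  have hp0 : 0 < p := by linarith
  have hi := ((integrable_rpow hp0 g).const_mul 2).add ((integrable_rpow hp0 h).const_mul 2)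
  refine hi.mono' ?_ (Filter.Eventually.of_forall fun ω => ?_)
  · have hm : ∀ g : Lp ℝ (ENNReal.ofReal p) μ, AEMeasurable (fun ω => mz q (g ω)) μ := fun g =>
      (measurable_mz q).comp_aemeasurable (Lp.aestronglyMeasurable g).aemeasurable
    exact (((hm g).sub (hm h)).pow_const 2).aestronglyMeasurable
  · rw [Real.norm_eq_abs, abs_of_nonneg (sq_nonneg _), Pi.add_apply]
    have := mz_sq_le hq (g ω) (h ω)
    rw [← hp] at this
    exact this

/-- The kernel of the Mazur map. -/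
noncomputable def mzK (q : ℝ) (g h : Ω → ℝ) (μ : Measure Ω) : ℝ :=
  ∫ ω, (mz q (g ω) - mz q (h ω)) ^ 2 ∂μ

theorem neg_mzK {X : Type} [Fintype X] {q : ℝ} (hq : 1 ≤ q) (hp : p = 2 * q)
    (f : X → Lp ℝ (ENNReal.ofReal p) μ) : Neg fun x y => mzK q (f x) (f y) μ := by
  refine ⟨fun x y => ?_, fun x => by simp [mzK], fun c hc => ?_⟩
  · simp only [mzK]
    congr 1
    funext ω
    ring
  · have e2 : ∑ x, ∑ y, c x * c y * mzK q (f x) (f y) μ
        = ∫ ω, ∑ x, ∑ y, c x * c y * (mz q (f x ω) - mz q (f y ω)) ^ 2 ∂μ := by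
      rw [integral_finsetSum _ fun x _ => integrable_finsetSum _ fun y _ =>
        (integrable_mz hq hp (f x) (f y)).const_mul _]
      refine sum_congr rfl fun x _ => ?_
      rw [integral_finsetSum _ fun y _ => (integrable_mz hq hp (f x) (f y)).const_mul _]
      exact sum_congr rfl fun y _ => (integral_const_mul _ _).symm
    rw [e2]
    refine integral_nonpos fun ω => ?_
    have h3 := (neg_sq (H := ℝ) fun x => mz q (f x ω)).neg c hc
    refine le_trans (le_of_eq ?_) h3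
    refine sum_congr rfl fun x _ => sum_congr rfl fun y _ => ?_
    rw [Real.norm_eq_abs, sq_abs]

theorem mzK_lower {q : ℝ} (hq : 1 ≤ q) (hp : p = 2 * q) (g h : Lp ℝ (ENNReal.ofReal p) μ) :
    ‖g - h‖ ^ p ≤ 2 ^ p * mzK q g h μ := by
  have hp0 : 0 < p := by linarith
  rw [norm_rpow_eq hp0, mzK, ← integral_const_mul]
  refine integral_mono_ae (integrable_rpow hp0 _) ((integrable_mz hq hp g h).const_mul _) ?_
  filter_upwards [Lp.coeFn_sub g h] with ω hω
  simp only [hω, Pi.sub_apply]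
  have h1 := mz_lower hq (g ω) (h ω)
  have h0 : 0 ≤ |g ω - h ω| ^ q := Real.rpow_nonneg (abs_nonneg _) _
  have h2 := mul_self_le_mul_self h0 h1
  have e0 : ∀ t : ℝ, 0 ≤ t → t ^ p = t ^ q * t ^ q := by
    intro t ht
    rw [← sq, ← Real.rpow_natCast, ← Real.rpow_mul ht, hp]
    congr 1
    push_cast
    ring
  rw [e0 _ (abs_nonneg _), e0 2 (by norm_num)]
  refine h2.trans (le_of_eq ?_)
  rw [← sq_abs (mz q (g ω) - mz q (h ω))]
  ring

theorem young {p X Y : ℝ} (hp : 2 ≤ p) (hX : 0 ≤ X) (hY : 0 ≤ Y) :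
    X ^ 2 * Y ^ (p - 2) ≤ X ^ p + Y ^ p := by
  have key : ∀ Z : ℝ, 0 ≤ Z → Z ^ 2 * Z ^ (p - 2) ≤ Z ^ p := by
    intro Z hZ
    rcases hZ.eq_or_lt with rfl | hZ
    · rw [zero_pow (by norm_num), zero_mul]
      positivity
    · rw [← Real.rpow_natCast, ← Real.rpow_add hZ]
      apply le_of_eq
      congr 1
      push_cast
      ring
  have h1 := Real.rpow_nonneg hX p
  have h2 := Real.rpow_nonneg hY p
  rcases le_total X Y with h | h
  · calc X ^ 2 * Y ^ (p - 2) ≤ Y ^ 2 * Y ^ (p - 2) :=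
          mul_le_mul_of_nonneg_right (pow_le_pow_left₀ hX h 2) (Real.rpow_nonneg hY _)
      _ ≤ Y ^ p := key Y hY
      _ ≤ _ := by linarith
  · calc X ^ 2 * Y ^ (p - 2) ≤ X ^ 2 * X ^ (p - 2) :=
          mul_le_mul_of_nonneg_left (Real.rpow_le_rpow hY h (by linarith)) (by positivity)
      _ ≤ X ^ p := key X hX
      _ ≤ _ := by linarith

theorem mz_sq_upper {q l a b : ℝ} (hq : 1 ≤ q) (hl : 0 < l) :
    (mz q a - mz q b) ^ 2 ≤ q ^ 2 * (l ^ (2 - 2 * q) * |a - b| ^ (2 * q) +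
      l ^ 2 * (2 ^ (2 * q) * (|a| ^ (2 * q) + |b| ^ (2 * q)))) := by
  have h1 := mz_upper hq a b
  have h2 : (mz q a - mz q b) ^ 2 ≤ (q * |a - b| * (|a| + |b|) ^ (q - 1)) ^ 2 := by
    rw [← sq_abs]
    exact pow_le_pow_left₀ (abs_nonneg _) h1 2
  have hY : 0 ≤ |a| + |b| := by positivity
  have h3 := young (p := 2 * q) (X := |a - b| / l) (Y := |a| + |b|) (by linarith) (by positivity) hY
  have e1 : ((|a| + |b|) ^ (q - 1)) ^ 2 = (|a| + |b|) ^ (2 * q - 2) := by
    rw [← Real.rpow_natCast, ← Real.rpow_mul hY]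
    congr 1
    push_cast
    ring
  have e2 : (|a - b| / l) ^ (2 * q) * l ^ 2 = l ^ (2 - 2 * q) * |a - b| ^ (2 * q) := by
    rw [Real.div_rpow (abs_nonneg _) hl.le, Real.rpow_sub hl]
    rw [show (l : ℝ) ^ (2 : ℝ) = l ^ 2 by norm_cast]
    field_simp
  have h4 : (|a| + |b|) ^ (2 * q) ≤ 2 ^ (2 * q) * (|a| ^ (2 * q) + |b| ^ (2 * q)) := by
    have key : ∀ u v : ℝ, 0 ≤ u → 0 ≤ v → u ≤ v → (u + v) ^ (2 * q) ≤
        2 ^ (2 * q) * (u ^ (2 * q) + v ^ (2 * q)) := by
      intro u v hu hv huv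
      calc (u + v) ^ (2 * q) ≤ (2 * v) ^ (2 * q) :=
            Real.rpow_le_rpow (by positivity) (by linarith) (by linarith)
        _ = 2 ^ (2 * q) * v ^ (2 * q) := Real.mul_rpow (by norm_num) hv
        _ ≤ _ := by
          apply mul_le_mul_of_nonneg_left _ (by positivity)
          have := Real.rpow_nonneg hu (2 * q)
          linarith
    rcases le_total |a| |b| with h | h
    · exact key _ _ (abs_nonneg _) (abs_nonneg _) h
    · rw [add_comm |a|, add_comm (|a| ^ (2 * q))]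
      exact key _ _ (abs_nonneg _) (abs_nonneg _) h
  refine h2.trans ?_
  calc (q * |a - b| * (|a| + |b|) ^ (q - 1)) ^ 2
      = q ^ 2 * (((|a - b| / l) ^ 2 * (|a| + |b|) ^ (2 * q - 2)) * l ^ 2) := by
        rw [mul_pow, mul_pow, e1, div_pow]
        field_simp
    _ ≤ q ^ 2 * (((|a - b| / l) ^ (2 * q) + (|a| + |b|) ^ (2 * q)) * l ^ 2) := by
        gcongr
    _ = q ^ 2 * ((|a - b| / l) ^ (2 * q) * l ^ 2 + l ^ 2 * (|a| + |b|) ^ (2 * q)) := by ring
    _ ≤ _ := by
        rw [e2]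
        gcongr

theorem mzK_upper {q : ℝ} (hq : 1 ≤ q) (hp : p = 2 * q) (g h : Lp ℝ (ENNReal.ofReal p) μ)
    (hg : ‖g‖ ≤ 1) (hh : ‖h‖ ≤ 1) (hl1 : ‖g - h‖ ≤ 1) :
    mzK q g h μ ≤ (q ^ 2 * (1 + 2 ^ (p + 1))) * ‖g - h‖ := by
  have hp0 : 0 < p := by linarith
  have : Fact (1 ≤ ENNReal.ofReal p) := ⟨by
    rw [← ENNReal.ofReal_one]
    exact ENNReal.ofReal_le_ofReal (by linarith)⟩
  rcases (norm_nonneg (g - h)).eq_or_lt with h0 | hl
  · have : g = h := by
      rw [← sub_eq_zero, ← norm_eq_zero]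
      exact h0.symm
    subst this
    simp [mzK]
  · obtain ⟨l, hldef⟩ : ∃ l, l = ‖g - h‖ := ⟨_, rfl⟩
    rw [← hldef] at hl hl1 ⊢
    have hgi : ∫ ω, |g ω| ^ p ∂μ ≤ 1 := by
      rw [← norm_rpow_eq hp0]
      exact Real.rpow_le_one (norm_nonneg _) hg hp0.le
    have hhi : ∫ ω, |h ω| ^ p ∂μ ≤ 1 := by
      rw [← norm_rpow_eq hp0]
      exact Real.rpow_le_one (norm_nonneg _) hh hp0.le
    have hgh : ∫ ω, |(g - h) ω| ^ p ∂μ = l ^ p := by rw [← norm_rpow_eq hp0, hldef]
    have h1 : mzK q g h μ ≤ ∫ ω, q ^ 2 * (l ^ (2 - p) * |(g - h) ω| ^ p +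
        l ^ 2 * (2 ^ p * (|g ω| ^ p + |h ω| ^ p))) ∂μ := by
      rw [mzK]
      refine integral_mono_ae (integrable_mz hq hp g h) ?_ ?_
      · exact (((integrable_rpow hp0 _).const_mul _).add
          ((((integrable_rpow hp0 g).add (integrable_rpow hp0 h)).const_mul _).const_mul _)).const_mul _
      · filter_upwards [Lp.coeFn_sub g h] with ω hω
        simp only [hω, Pi.sub_apply]
        have := mz_sq_upper (a := g ω) (b := h ω) hq hl
        rw [← hp] at this
        exact this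
    have h2 : ∫ ω, q ^ 2 * (l ^ (2 - p) * |(g - h) ω| ^ p +
        l ^ 2 * (2 ^ p * (|g ω| ^ p + |h ω| ^ p))) ∂μ =
        q ^ 2 * (l ^ (2 - p) * ∫ ω, |(g - h) ω| ^ p ∂μ +
          l ^ 2 * (2 ^ p * (∫ ω, |g ω| ^ p ∂μ + ∫ ω, |h ω| ^ p ∂μ))) := by
      have i1 : Integrable (fun ω => l ^ (2 - p) * |(g - h) ω| ^ p) μ :=
        (integrable_rpow hp0 _).const_mul _
      have i2 : Integrable (fun ω => |g ω| ^ p + |h ω| ^ p) μ :=
        (integrable_rpow hp0 g).add (integrable_rpow hp0 h)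
      have i3 : Integrable (fun ω => l ^ 2 * (2 ^ p * (|g ω| ^ p + |h ω| ^ p))) μ :=
        (i2.const_mul _).const_mul _
      rw [integral_const_mul, integral_add i1 i3, integral_const_mul, integral_const_mul,
        integral_const_mul, integral_add (integrable_rpow hp0 g) (integrable_rpow hp0 h)]
    rw [h2, hgh] at h1
    have e1 : l ^ (2 - p) * l ^ p = l ^ 2 := by
      rw [← Real.rpow_add hl, sub_add_cancel]
      norm_cast
    rw [e1] at h1
    refine h1.trans ?_
    have hp2 : (0 : ℝ) < 2 ^ p := by positivity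
    have e2 : (2 : ℝ) ^ (p + 1) = 2 ^ p * 2 := by
      rw [Real.rpow_add (by norm_num), Real.rpow_one]
    have e3 : l ^ 2 ≤ l := by nlinarith only [hl, hl1]
    rw [e2]
    calc q ^ 2 * (l ^ 2 + l ^ 2 * (2 ^ p * (∫ ω, |g ω| ^ p ∂μ + ∫ ω, |h ω| ^ p ∂μ)))
        ≤ q ^ 2 * (l ^ 2 + l ^ 2 * (2 ^ p * (1 + 1))) := by gcongr
      _ = q ^ 2 * (1 + 2 ^ p * 2) * l ^ 2 := by ring
      _ ≤ _ := mul_le_mul_of_nonneg_left e3 (by positivity)

end lp

end Vale.Agent.P238.H651
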